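import Vale.Agent.P098.Six.S18.Root

/-!
# P098, six dimensions: checked pieces of the tree
-/

namespace Vale.Agent.P098.Six.S18

/-- A piece of the tree. -/
noncomputable def tree31 : Tree LeafX :=
  .s2
    (.s3
    (.leaf (.box ⟨269, -19, -2048, 40, 174, 381, 177217, 0, 0, 0, 0, 0, 0⟩ ⟨0, 0, 0, 0, 0, 0, 251765, 0, 0, 0, 0, 0, 0⟩ ⟨0, 0, 0, 0, 0, 0, 251765, 0, 0, 0, 0, 0, 0⟩ ⟨0, 0, 0, 0, 0, 0, 434571, 0, 0, 0, 0, 0, 0⟩ ⟨0, 0, 0, 0, 0, 0, 434571, 0, 0, 0, 0, 0, 0⟩ ⟨281, -3, -2564, 6, 25, 518, 1586580, 0, 0, 0, 0, 0, 0⟩))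
    (.s2
    (.leaf (.box ⟨280, -14, -2048, 31, 176, 391, 186236, 0, 0, 0, 0, 0, 0⟩ ⟨251, -11, -2048, 24, 137, 412, 250288, 0, 0, 0, 0, 0, 0⟩ ⟨251, -11, -2048, 24, 137, 412, 250288, 0, 0, 0, 0, 0, 0⟩ ⟨238, -7, -2048, 15, 86, 419, 399614, 0, 0, 0, 0, 0, 0⟩ ⟨238, -7, -2048, 15, 86, 419, 399614, 0, 0, 0, 0, 0, 0⟩ ⟨224, -3, -2048, 7, 35, 426, 978334, 0, 0, 0, 0, 0, 0⟩))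
    (.s1
    (.leaf (.box ⟨204, -9, -2048, 21, 167, 393, 194326, 0, 0, 0, 0, 0, 0⟩ ⟨194, -6, -2048, 15, 125, 399, 261996, 0, 0, 0, 0, 0, 0⟩ ⟨194, -6, -2048, 15, 125, 399, 261996, 0, 0, 0, 0, 0, 0⟩ ⟨181, -4, -2048, 10, 78, 405, 419540, 0, 0, 0, 0, 0, 0⟩ ⟨181, -4, -2048, 10, 78, 405, 419540, 0, 0, 0, 0, 0, 0⟩ ⟨250, -3, -3042, 6, 48, 610, 1029914, 0, 0, 0, 0, 0, 0⟩))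
    (.leaf (.box ⟨192, -14, -2048, 28, 185, 407, 199011, 0, 0, 0, 0, 0, 0⟩ ⟨0, 0, 0, 0, 0, 0, 272710, 0, 0, 0, 0, 0, 0⟩ ⟨0, 0, 0, 0, 0, 0, 272710, 0, 0, 0, 0, 0, 0⟩ ⟨0, 0, 0, 0, 0, 0, 433095, 0, 0, 0, 0, 0, 0⟩ ⟨0, 0, 0, 0, 0, 0, 433095, 0, 0, 0, 0, 0, 0⟩ ⟨166, -3, -2122, 6, 37, 442, 1051497, 0, 0, 0, 0, 0, 0⟩)))))
    (.s3
    (.leaf (.box ⟨236, -24, -2048, 52, 173, 382, 193519, 0, 0, 0, 0, 0, 0⟩ ⟨0, 0, 0, 0, 0, 0, 275175, 0, 0, 0, 0, 0, 0⟩ ⟨0, 0, 0, 0, 0, 0, 275175, 0, 0, 0, 0, 0, 0⟩ ⟨0, 0, 0, 0, 0, 0, 476038, 0, 0, 0, 0, 0, 0⟩ ⟨0, 0, 0, 0, 0, 0, 476038, 0, 0, 0, 0, 0, 0⟩ ⟨203, -3, -2048, 7, 19, 405, 1762783, 0, 0, 0, 0, 0, 0⟩))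
    (.leaf (.box ⟨234, -25, -2048, 55, 181, 394, 202112, 0, 0, 0, 0, 0, 0⟩ ⟨0, 0, 0, 0, 0, 0, 276009, 0, 0, 0, 0, 0, 0⟩ ⟨0, 0, 0, 0, 0, 0, 276009, 0, 0, 0, 0, 0, 0⟩ ⟨0, 0, 0, 0, 0, 0, 435085, 0, 0, 0, 0, 0, 0⟩ ⟨0, 0, 0, 0, 0, 0, 435085, 0, 0, 0, 0, 0, 0⟩ ⟨199, -5, -2048, 11, 36, 412, 1026976, 0, 0, 0, 0, 0, 0⟩)))

/-- A piece of the tree. -/
noncomputable def tree32 : Tree LeafX :=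
  .s2
    (.leaf (.box ⟨572, -51, -2048, 94, 271, 457, 142764, 0, 0, 0, 0, 0, 0⟩ ⟨0, 0, 0, 0, 0, 0, 196167, 0, 0, 0, 0, 0, 0⟩ ⟨0, 0, 0, 0, 0, 0, 196167, 0, 0, 0, 0, 0, 0⟩ ⟨0, 0, 0, 0, 0, 0, 313398, 0, 0, 0, 0, 0, 0⟩ ⟨0, 0, 0, 0, 0, 0, 313398, 0, 0, 0, 0, 0, 0⟩ ⟨505, -10, -2048, 18, 52, 497, 778832, 0, 0, 0, 0, 0, 0⟩))
    (.s2
    (.leaf (.box ⟨407, -71, -2048, 109, 265, 404, 148283, 0, 0, 0, 0, 0, 0⟩ ⟨0, 0, 0, 0, 0, 0, 205064, 0, 0, 0, 0, 0, 0⟩ ⟨0, 0, 0, 0, 0, 0, 205064, 0, 0, 0, 0, 0, 0⟩ ⟨0, 0, 0, 0, 0, 0, 332316, 0, 0, 0, 0, 0, 0⟩ ⟨0, 0, 0, 0, 0, 0, 332316, 0, 0, 0, 0, 0, 0⟩ ⟨281, -11, -2048, 18, 46, 437, 875766, 0, 0, 0, 0, 0, 0⟩))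
    (.leaf (.box ⟨367, -77, -2048, 125, 263, 385, 160037, 0, 0, 0, 0, 0, 0⟩ ⟨0, 0, 0, 0, 0, 0, 221539, 0, 0, 0, 0, 0, 0⟩ ⟨0, 0, 0, 0, 0, 0, 221539, 0, 0, 0, 0, 0, 0⟩ ⟨0, 0, 0, 0, 0, 0, 359814, 0, 0, 0, 0, 0, 0⟩ ⟨0, 0, 0, 0, 0, 0, 359814, 0, 0, 0, 0, 0, 0⟩ ⟨269, -12, -2048, 21, 45, 421, 957354, 0, 0, 0, 0, 0, 0⟩)))

/-- A piece of the tree. -/
noncomputable def tree33 : Tree LeafX :=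
  .s2
    (.leaf (.box ⟨609, -24, -2048, 109, 207, 507, 206900, 0, 0, 0, 0, 0, 0⟩ ⟨0, 0, 0, 0, 0, 0, 279398, 0, 0, 0, 0, 0, 0⟩ ⟨0, 0, 0, 0, 0, 0, 279398, 0, 0, 0, 0, 0, 0⟩ ⟨0, 0, 0, 0, 0, 0, 430106, 0, 0, 0, 0, 0, 0⟩ ⟨0, 0, 0, 0, 0, 0, 430106, 0, 0, 0, 0, 0, 0⟩ ⟨552, -5, -2048, 23, 47, 522, 933802, 0, 0, 0, 0, 0, 0⟩))
    (.leaf (.box ⟨413, -75, -2048, 202, 180, 469, 227943, 0, 0, 0, 0, 0, 0⟩ ⟨0, 0, 0, 0, 0, 0, 311802, 0, 0, 0, 0, 0, 0⟩ ⟨0, 0, 0, 0, 0, 0, 311802, 0, 0, 0, 0, 0, 0⟩ ⟨0, 0, 0, 0, 0, 0, 493275, 0, 0, 0, 0, 0, 0⟩ ⟨0, 0, 0, 0, 0, 0, 493275, 0, 0, 0, 0, 0, 0⟩ ⟨406, -13, -2048, 34, 39, 486, 1180116, 0, 0, 0, 0, 0, 0⟩))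

/-- A piece of the tree. -/
noncomputable def tree34 : Tree LeafX :=
  .s1
    (.s2
    (.leaf (.box ⟨929, 83, -2048, 360, 65, 627, 340087, 0, 0, 0, 0, 0, 0⟩ ⟨0, 0, 0, 0, 0, 0, 452990, 0, 0, 0, 0, 0, 0⟩ ⟨0, 0, 0, 0, 0, 0, 452990, 0, 0, 0, 0, 0, 0⟩ ⟨0, 0, 0, 0, 0, 0, 678110, 0, 0, 0, 0, 0, 0⟩ ⟨0, 0, 0, 0, 0, 0, 678110, 0, 0, 0, 0, 0, 0⟩ ⟨803, 24, -2048, 86, 14, 600, 1348033, 0, 0, 0, 0, 0, 0⟩))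
    (.s0
    (.leaf (.box ⟨918, 9, -2048, 201, 27, 638, 393864, 0, 0, 0, 2416665066, 0, 0⟩ ⟨0, 0, 0, 0, 0, 0, 530696, 0, 0, 0, 0, 0, 0⟩ ⟨0, 0, 0, 0, 0, 0, 530696, 0, 0, 0, 0, 0, 0⟩ ⟨0, 0, 0, 0, 0, 0, 813214, 0, 0, 0, 0, 0, 0⟩ ⟨0, 0, 0, 0, 0, 0, 813214, 0, 0, 0, 0, 0, 0⟩ ⟨820, 2, -2048, 44, 5, 604, 1738945, 0, 0, 0, 0, 0, 0⟩))
    (.leaf (.box ⟨1687, 42, -2048, 328, -112, 967, 670441, 0, 0, 0, 0, 0, 97896582861⟩ ⟨0, 0, 0, 0, 0, 0, 895006, 0, 0, 0, 0, 0, 0⟩ ⟨0, 0, 0, 0, 0, 0, 895006, 0, 0, 0, 0, 0, 0⟩ ⟨0, 0, 0, 0, 0, 0, 1345774, 0, 0, 0, 0, 0, 0⟩ ⟨0, 0, 0, 0, 0, 0, 1345774, 0, 0, 0, 0, 0, 0⟩ ⟨1600, 11, -2048, 75, -27, 881, 2711329, 0, 0, 0, 0, 0, 0⟩))))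
    (.s0
    (.leaf (.box ⟨654, -34, -2048, 239, 130, 627, 337363, 0, 0, 0, 0, 0, 0⟩ ⟨0, 0, 0, 0, 0, 0, 450717, 0, 0, 0, 0, 0, 0⟩ ⟨0, 0, 0, 0, 0, 0, 450717, 0, 0, 0, 0, 0, 0⟩ ⟨0, 0, 0, 0, 0, 0, 678788, 0, 0, 0, 0, 0, 0⟩ ⟨0, 0, 0, 0, 0, 0, 678788, 0, 0, 0, 0, 0, 0⟩ ⟨488, -8, -2048, 54, 32, 608, 1374118, 0, 0, 0, 0, 0, 0⟩))
    (.leaf (.box ⟨1266, -9, -2048, 294, 21, 823, 556637, 0, 0, 0, 0, 0, 0⟩ ⟨0, 0, 0, 0, 0, 0, 740516, 0, 0, 0, 0, 0, 0⟩ ⟨0, 0, 0, 0, 0, 0, 740516, 0, 0, 0, 0, 0, 0⟩ ⟨0, 0, 0, 0, 0, 0, 1105804, 0, 0, 0, 0, 0, 0⟩ ⟨0, 0, 0, 0, 0, 0, 1105804, 0, 0, 0, 0, 0, 0⟩ ⟨1027, -2, -2048, 68, 5, 765, 2182317, 0, 0, 0, 0, 0, 0⟩)))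

/-- A piece of the tree. -/
noncomputable def tree35 : Tree LeafX :=
  .s0
    (.s2
    (.s0
    (.s0
    (.leaf (.box ⟨430, -19, -2048, 71, 127, 305, 154020, 0, 0, 0, 0, 0, 0⟩ ⟨0, 0, 0, 0, 0, 0, 209107, 0, 0, 0, 0, 0, 0⟩ ⟨0, 0, 0, 0, 0, 0, 209107, 0, 0, 0, 0, 0, 0⟩ ⟨0, 0, 0, 0, 0, 0, 325540, 0, 0, 0, 0, 0, 0⟩ ⟨0, 0, 0, 0, 0, 0, 325540, 0, 0, 0, 0, 0, 0⟩ ⟨377, -4, -2048, 16, 27, 326, 734532, 0, 0, 0, 0, 506040238, 0⟩))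
    (.s2
    (.leaf (.box ⟨326, -13, -2048, 51, 134, 317, 176321, 0, 0, 0, 0, 0, 0⟩ ⟨0, 0, 0, 0, 0, 0, 239210, 0, 0, 0, 0, 0, 0⟩ ⟨0, 0, 0, 0, 0, 0, 239210, 0, 0, 0, 0, 0, 0⟩ ⟨0, 0, 0, 0, 0, 0, 371832, 0, 0, 0, 0, 0, 0⟩ ⟨0, 0, 0, 0, 0, 0, 371832, 0, 0, 0, 0, 0, 0⟩ ⟨338, -4, -2048, 14, 26, 340, 834479, 0, 0, 0, 0, 0, 0⟩))
    (.leaf (.box ⟨377, -16, -2048, 73, 119, 335, 192027, 0, 0, 0, 0, 0, 0⟩ ⟨0, 0, 0, 0, 0, 0, 259812, 0, 0, 0, 0, 0, 0⟩ ⟨0, 0, 0, 0, 0, 0, 259812, 0, 0, 0, 0, 0, 0⟩ ⟨0, 0, 0, 0, 0, 0, 401560, 0, 0, 0, 0, 0, 0⟩ ⟨0, 0, 0, 0, 0, 0, 401560, 0, 0, 0, 0, 0, 0⟩ ⟨312, -3, -2048, 16, 26, 345, 883680, 0, 0, 0, 0, 6839829060, 0⟩))))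
    (.s1
    (.s2
    (.s0
    (.leaf (.box ⟨249, -4, -2048, 23, 98, 336, 203535, 0, 0, 0, 0, 0, 0⟩ ⟨0, 0, 0, 0, 0, 0, 275642, 0, 0, 0, 0, 0, 0⟩ ⟨0, 0, 0, 0, 0, 0, 275642, 0, 0, 0, 0, 0, 0⟩ ⟨0, 0, 0, 0, 0, 0, 426871, 0, 0, 0, 0, 0, 0⟩ ⟨0, 0, 0, 0, 0, 0, 426871, 0, 0, 0, 0, 0, 0⟩ ⟨253, -1, -2382, 6, 25, 402, 945743, 0, 0, 0, 0, 0, 0⟩))
    (.leaf (.box ⟨234, -3, -2048, 25, 90, 367, 234418, 0, 0, 0, 0, 0, 0⟩ ⟨0, 0, 0, 0, 0, 0, 317006, 0, 0, 0, 0, 0, 0⟩ ⟨0, 0, 0, 0, 0, 0, 317006, 0, 0, 0, 0, 0, 0⟩ ⟨0, 0, 0, 0, 0, 0, 489441, 0, 0, 0, 0, 0, 0⟩ ⟨0, 0, 0, 0, 0, 0, 489441, 0, 0, 0, 0, 0, 0⟩ ⟨225, -1, -2201, 6, 21, 399, 1073214, 0, 0, 0, 0, 0, 0⟩)))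
    (.s1
    (.leaf (.box ⟨334, -3, -2048, 28, 85, 363, 221335, 0, 0, 0, 0, 0, 0⟩ ⟨0, 0, 0, 0, 0, 0, 299021, 0, 0, 0, 0, 0, 0⟩ ⟨0, 0, 0, 0, 0, 0, 299021, 0, 0, 0, 0, 0, 0⟩ ⟨0, 0, 0, 0, 0, 0, 460732, 0, 0, 0, 0, 0, 0⟩ ⟨0, 0, 0, 0, 0, 0, 460732, 0, 0, 0, 0, 0, 0⟩ ⟨277, -1, -2048, 7, 19, 366, 1003336, 0, 0, 0, 0, 0, 0⟩))
    (.leaf (.box ⟨302, -5, -2048, 33, 109, 368, 224013, 0, 0, 0, 0, 0, 0⟩ ⟨0, 0, 0, 0, 0, 0, 303881, 0, 0, 0, 0, 0, 0⟩ ⟨0, 0, 0, 0, 0, 0, 303881, 0, 0, 0, 0, 0, 0⟩ ⟨0, 0, 0, 0, 0, 0, 472254, 0, 0, 0, 0, 0, 0⟩ ⟨0, 0, 0, 0, 0, 0, 472254, 0, 0, 0, 0, 0, 0⟩ ⟨268, -1, -2226, 6, 23, 408, 1059044, 0, 0, 0, 0, 0, 0⟩))))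
    (.s2
    (.s0
    (.leaf (.box ⟨222, -13, -2048, 42, 130, 357, 205955, 0, 0, 0, 0, 0, 0⟩ ⟨0, 0, 0, 0, 0, 0, 280772, 0, 0, 0, 0, 0, 0⟩ ⟨0, 0, 0, 0, 0, 0, 280772, 0, 0, 0, 0, 0, 0⟩ ⟨0, 0, 0, 0, 0, 0, 440955, 0, 0, 0, 0, 0, 0⟩ ⟨0, 0, 0, 0, 0, 0, 440955, 0, 0, 0, 0, 0, 0⟩ ⟨188, -2, -2048, 9, 27, 373, 1026697, 0, 0, 0, 0, 0, 0⟩))
    (.leaf (.box ⟨200, -11, -2048, 42, 122, 383, 237107, 0, 0, 0, 0, 0, 0⟩ ⟨0, 0, 0, 0, 0, 0, 322800, 0, 0, 0, 0, 0, 0⟩ ⟨0, 0, 0, 0, 0, 0, 322800, 0, 0, 0, 0, 0, 0⟩ ⟨0, 0, 0, 0, 0, 0, 505489, 0, 0, 0, 0, 0, 0⟩ ⟨0, 0, 0, 0, 0, 0, 505489, 0, 0, 0, 0, 0, 0⟩ ⟨182, -3, -2048, 10, 25, 394, 1164586, 0, 0, 0, 0, 0, 0⟩)))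
    (.leaf (.box ⟨287, -14, -2048, 58, 134, 375, 230104, 0, 0, 0, 0, 0, 0⟩ ⟨0, 0, 0, 0, 0, 0, 313495, 0, 0, 0, 0, 0, 0⟩ ⟨0, 0, 0, 0, 0, 0, 313495, 0, 0, 0, 0, 0, 0⟩ ⟨0, 0, 0, 0, 0, 0, 491684, 0, 0, 0, 0, 0, 0⟩ ⟨0, 0, 0, 0, 0, 0, 491684, 0, 0, 0, 0, 0, 0⟩ ⟨249, -3, -2048, 12, 28, 389, 1139199, 0, 0, 0, 0, 0, 0⟩)))))
    (.s1
    (.leaf (.box ⟨604, -9, -2048, 91, 103, 350, 181503, 0, 0, 0, 0, 0, 0⟩ ⟨0, 0, 0, 0, 0, 0, 245307, 0, 0, 0, 0, 0, 0⟩ ⟨0, 0, 0, 0, 0, 0, 245307, 0, 0, 0, 0, 0, 0⟩ ⟨0, 0, 0, 0, 0, 0, 378284, 0, 0, 0, 0, 0, 0⟩ ⟨0, 0, 0, 0, 0, 0, 378284, 0, 0, 0, 0, 0, 0⟩ ⟨519, -2, -2048, 18, 26, 362, 826099, 0, 0, 0, 0, 0, 0⟩))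
    (.leaf (.box ⟨487, -22, -2048, 138, 178, 359, 192404, 0, 0, 0, 0, 25614997080, 0⟩ ⟨0, 0, 0, 0, 0, 0, 261748, 0, 0, 0, 0, 0, 0⟩ ⟨0, 0, 0, 0, 0, 0, 261748, 0, 0, 0, 0, 0, 0⟩ ⟨0, 0, 0, 0, 0, 0, 409238, 0, 0, 0, 0, 0, 0⟩ ⟨0, 0, 0, 0, 0, 0, 409238, 0, 0, 0, 0, 0, 0⟩ ⟨392, -4, -2048, 29, 38, 377, 937513, 0, 0, 0, 0, 27273577169, 0⟩))))
    (.s2
    (.s0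
    (.s2
    (.leaf (.box ⟨421, -12, -2048, 79, 99, 408, 269010, 0, 0, 0, 0, 0, 0⟩ ⟨0, 0, 0, 0, 0, 0, 363446, 0, 0, 0, 0, 0, 0⟩ ⟨0, 0, 0, 0, 0, 0, 363446, 0, 0, 0, 0, 0, 0⟩ ⟨0, 0, 0, 0, 0, 0, 560051, 0, 0, 0, 0, 0, 0⟩ ⟨0, 0, 0, 0, 0, 0, 560051, 0, 0, 0, 0, 0, 0⟩ ⟨358, -3, -2048, 16, 21, 429, 1220013, 0, 0, 0, 0, 0, 0⟩))
    (.leaf (.box ⟨455, -15, -2048, 97, 99, 469, 292667, 0, 0, 0, 0, 0, 0⟩ ⟨0, 0, 0, 0, 0, 0, 394554, 0, 0, 0, 0, 0, 0⟩ ⟨0, 0, 0, 0, 0, 0, 394554, 0, 0, 0, 0, 0, 0⟩ ⟨0, 0, 0, 0, 0, 0, 605267, 0, 0, 0, 0, 0, 0⟩ ⟨0, 0, 0, 0, 0, 0, 605267, 0, 0, 0, 0, 0, 0⟩ ⟨359, -3, -2048, 21, 21, 445, 1299002, 0, 0, 0, 0, 0, 0⟩)))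
    (.leaf (.box ⟨909, -18, -2048, 156, 69, 611, 356250, 0, 0, 0, 0, 0, 0⟩ ⟨0, 0, 0, 0, 0, 0, 479453, 0, 0, 0, 0, 0, 0⟩ ⟨0, 0, 0, 0, 0, 0, 479453, 0, 0, 0, 0, 0, 0⟩ ⟨0, 0, 0, 0, 0, 0, 732921, 0, 0, 0, 0, 0, 0⟩ ⟨0, 0, 0, 0, 0, 0, 732921, 0, 0, 0, 0, 0, 0⟩ ⟨761, -4, -2048, 31, 14, 531, 1554972, 0, 0, 0, 0, 0, 0⟩)))
    (.leaf (.box ⟨2048, -34, -1902, 273, 86, 477, 318520, 0, 0, 0, 0, 167140252879, 0⟩ ⟨0, 0, 0, 0, 0, 0, 429976, 0, 0, 0, 0, 0, 0⟩ ⟨0, 0, 0, 0, 0, 0, 429976, 0, 0, 0, 0, 0, 0⟩ ⟨0, 0, 0, 0, 0, 0, 661416, 0, 0, 0, 0, 0, 0⟩ ⟨0, 0, 0, 0, 0, 0, 661416, 0, 0, 0, 0, 0, 0⟩ ⟨1591, -8, -2048, 64, 22, 538, 1432454, 0, 0, 0, 0, 162999256838, 0⟩)))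

/-- A piece of the tree. -/
noncomputable def tree36 : Tree LeafX :=
  .s2
    (.s0
    (.s0
    (.s1
    (.leaf (.box ⟨316, -41, -2048, 97, 207, 354, 165808, 0, 0, 0, 0, 0, 0⟩ ⟨0, 0, 0, 0, 0, 0, 228394, 0, 0, 0, 0, 0, 0⟩ ⟨0, 0, 0, 0, 0, 0, 228394, 0, 0, 0, 0, 0, 0⟩ ⟨0, 0, 0, 0, 0, 0, 366873, 0, 0, 0, 0, 0, 0⟩ ⟨0, 0, 0, 0, 0, 0, 366873, 0, 0, 0, 0, 0, 0⟩ ⟨208, -7, -2048, 18, 37, 378, 931898, 0, 0, 0, 0, 0, 0⟩))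
    (.leaf (.box ⟨252, -42, -2048, 85, 235, 364, 178945, 0, 0, 0, 0, 0, 0⟩ ⟨0, 0, 0, 0, 0, 0, 247544, 0, 0, 0, 0, 0, 0⟩ ⟨0, 0, 0, 0, 0, 0, 247544, 0, 0, 0, 0, 0, 0⟩ ⟨0, 0, 0, 0, 0, 0, 401431, 0, 0, 0, 0, 0, 0⟩ ⟨0, 0, 0, 0, 0, 0, 401431, 0, 0, 0, 0, 0, 0⟩ ⟨203, -7, -2048, 16, 41, 406, 1061023, 0, 0, 0, 0, 0, 0⟩)))
    (.leaf (.box ⟨292, -58, -2048, 144, 223, 387, 218216, 0, 0, 0, 0, 0, 0⟩ ⟨0, 0, 0, 0, 0, 0, 300273, 0, 0, 0, 0, 0, 0⟩ ⟨0, 0, 0, 0, 0, 0, 300273, 0, 0, 0, 0, 0, 0⟩ ⟨0, 0, 0, 0, 0, 0, 481233, 0, 0, 0, 0, 0, 0⟩ ⟨0, 0, 0, 0, 0, 0, 481233, 0, 0, 0, 0, 0, 0⟩ ⟨279, -10, -2048, 27, 41, 418, 1211114, 0, 0, 0, 0, 2415739501, 0⟩)))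
    (.leaf (.box ⟨464, -79, -2048, 241, 225, 468, 289477, 0, 0, 0, 0, 0, 0⟩ ⟨0, 0, 0, 0, 0, 0, 397500, 0, 0, 0, 0, 0, 0⟩ ⟨0, 0, 0, 0, 0, 0, 397500, 0, 0, 0, 0, 0, 0⟩ ⟨0, 0, 0, 0, 0, 0, 634135, 0, 0, 0, 0, 0, 0⟩ ⟨0, 0, 0, 0, 0, 0, 634135, 0, 0, 0, 0, 0, 0⟩ ⟨400, -13, -2048, 43, 42, 485, 1566967, 0, 0, 0, 0, 0, 0⟩)))
    (.leaf (.skip 8 0))

/-- A piece of the tree. -/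
noncomputable def tree37 : Tree LeafX :=
  .s1
    (.s2
    (.s0
    (.s2
    (.leaf (.box ⟨1649, -11, -2048, 301, -30, 833, 463635, 0, 0, 0, 0, 0, 0⟩ ⟨0, 0, 0, 0, 0, 0, 620167, 0, 0, 0, 0, 0, 0⟩ ⟨0, 0, 0, 0, 0, 0, 620167, 0, 0, 0, 0, 0, 0⟩ ⟨0, 0, 0, 0, 0, 0, 936268, 0, 0, 0, 0, 0, 0⟩ ⟨0, 0, 0, 0, 0, 0, 936268, 0, 0, 0, 0, 0, 0⟩ ⟨1414, -3, -2048, 67, -6, 745, 1909595, 0, 0, 0, 0, 0, 0⟩))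
    (.leaf (.box ⟨2048, -22, -1184, 296, -46, 606, 491896, 0, 0, 0, 0, 229057483038, 0⟩ ⟨0, 0, 0, 0, 0, 0, 659833, 0, 0, 0, 0, 0, 0⟩ ⟨0, 0, 0, 0, 0, 0, 659833, 0, 0, 0, 0, 0, 0⟩ ⟨0, 0, 0, 0, 0, 0, 1001884, 0, 0, 0, 0, 0, 0⟩ ⟨0, 0, 0, 0, 0, 0, 1001884, 0, 0, 0, 0, 0, 0⟩ ⟨2048, -6, -1491, 78, -11, 671, 2080278, 0, 0, 0, 0, 287430516304, 0⟩)))
    (.s2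
    (.leaf (.box ⟨2048, 14, -696, 316, -171, 833, 749680, 0, 0, 0, 0, 0, 0⟩ ⟨0, 0, 0, 0, 0, 0, 997615, 0, 0, 0, 0, 0, 0⟩ ⟨0, 0, 0, 0, 0, 0, 997615, 0, 0, 0, 0, 0, 0⟩ ⟨0, 0, 0, 0, 0, 0, 1490582, 0, 0, 0, 0, 0, 0⟩ ⟨0, 0, 0, 0, 0, 0, 1490582, 0, 0, 0, 0, 0, 0⟩ ⟨2048, 4, -875, 77, -41, 767, 2946659, 0, 0, 0, 0, 0, 0⟩))
    (.leaf (.box ⟨2048, -1, 182, 235, -124, 439, 767219, 0, 0, 0, 0, 1196255484016, 493803541229⟩ ⟨0, 0, 0, 0, 0, 0, 1024636, 0, 0, 0, 0, 0, 0⟩ ⟨0, 0, 0, 0, 0, 0, 1024636, 0, 0, 0, 0, 0, 0⟩ ⟨0, 0, 0, 0, 0, 0, 1542008, 0, 0, 0, 0, 0, 0⟩ ⟨0, 0, 0, 0, 0, 0, 1542008, 0, 0, 0, 0, 0, 0⟩ ⟨2048, 0, -10, 56, -28, 406, 3114743, 0, 0, 0, 0, 771229734312, 18723973647⟩))))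
    (.leaf (.skip 8 0)))
    (.s0
    (.leaf (.box ⟨1530, -107, -2048, 502, 215, 683, 500192, 0, 0, 0, 0, 337221711997, 0⟩ ⟨0, 0, 0, 0, 0, 0, 682003, 0, 0, 0, 0, 0, 0⟩ ⟨0, 0, 0, 0, 0, 0, 682003, 0, 0, 0, 0, 0, 0⟩ ⟨0, 0, 0, 0, 0, 0, 1071460, 0, 0, 0, 0, 0, 0⟩ ⟨0, 0, 0, 0, 0, 0, 1071460, 0, 0, 0, 0, 0, 0⟩ ⟨1196, -19, -2048, 93, 43, 672, 2497857, 0, 0, 0, 0, 0, 0⟩))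
    (.leaf (.skip 8 0)))

theorem parts2 :
    (runPathS conQ supQ (fun n Qs i d x => leafR conQ seg n Qs i d x) [.d0 true, .d1 true, .d2 false, .d0 false, .d1 true, .d0 false, .d1 false, .d2 true, .d0 true] tree31 0 0 0
      (joinS (lay.B * lay.size) rootQ) = true) ∧
    (runPathS conQ supQ (fun n Qs i d x => leafR conQ seg n Qs i d x) [.d0 true, .d1 true, .d2 false, .d0 false, .d1 true, .d0 false, .d1 true] tree32 0 0 0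
      (joinS (lay.B * lay.size) rootQ) = true) ∧
    (runPathS conQ supQ (fun n Qs i d x => leafR conQ seg n Qs i d x) [.d0 true, .d1 true, .d2 false, .d0 false, .d1 true, .d0 true] tree33 0 0 0
      (joinS (lay.B * lay.size) rootQ) = true) ∧
    (runPathS conQ supQ (fun n Qs i d x => leafR conQ seg n Qs i d x) [.d0 true, .d1 true, .d2 false, .d0 true] tree34 0 0 0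
      (joinS (lay.B * lay.size) rootQ) = true) ∧
    (runPathS conQ supQ (fun n Qs i d x => leafR conQ seg n Qs i d x) [.d0 true, .d1 true, .d2 true, .d0 false, .d1 false] tree35 0 0 0
      (joinS (lay.B * lay.size) rootQ) = true) ∧
    (runPathS conQ supQ (fun n Qs i d x => leafR conQ seg n Qs i d x) [.d0 true, .d1 true, .d2 true, .d0 false, .d1 true] tree36 0 0 0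
      (joinS (lay.B * lay.size) rootQ) = true) ∧
    (runPathS conQ supQ (fun n Qs i d x => leafR conQ seg n Qs i d x) [.d0 true, .d1 true, .d2 true, .d0 true] tree37 0 0 0
      (joinS (lay.B * lay.size) rootQ) = true) :=
  ⟨by decide +kernel,
  by decide +kernel,
  by decide +kernel,
  by decide +kernel,
  by decide +kernel,
  by decide +kernel,
  by decide +kernel⟩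

end Vale.Agent.P098.Six.S18
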